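import Crest.Agent.X262.Ult.Hyc

/-!
# Row 262, road B, (BL) (helper53), part 1: the algebra

`F d I` are operators (elements of an algebra `R`), `op d I` are classes, `π` is an idempotent.
If the operators of `g`-degree zero are block diagonal and scalar on the image of `π`, the class
`E` acts there by a non-zero series and `G * E` has no part of `g`-degree zero, then WDVV and the
divisor equation for `G` force all operators to be block diagonal and scalar on the image of `π`.
-/

set_option autoImplicit false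

namespace Crest.Agent.X262.Bl53

open Finset

section Scal

variable {k R : Type*} [Field k] [Ring R] [Algebra k R]

variable (k) in
/-- block diagonal and scalar on the image of `π` -/
def Scal (π : R) : Subalgebra k R where
  carrier := {T | ∃ c : k, T * π = c • π ∧ π * T = c • π}
  mul_mem' := by
    rintro a b ⟨c, h1, h2⟩ ⟨c', h3, h4⟩
    refine ⟨c * c', ?_, ?_⟩
    · rw [mul_assoc, h3, mul_smul_comm, h1, smul_smul, mul_comm]
    · rw [← mul_assoc, h2, smul_mul_assoc, h4, smul_smul]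
  add_mem' := by
    rintro a b ⟨c, h1, h2⟩ ⟨c', h3, h4⟩
    exact ⟨c + c', by rw [add_mul, h1, h3, add_smul], by rw [mul_add, h2, h4, add_smul]⟩
  algebraMap_mem' c := ⟨c, by rw [Algebra.smul_def], by rw [Algebra.smul_def, Algebra.commutes]⟩

theorem mem_Scal {π T : R} : T ∈ Scal k π ↔ ∃ c : k, T * π = c • π ∧ π * T = c • π := Iff.rfl

theorem mem_Scal_of {π T : R} (hπ : π * π = π) (h1 : T * π ∈ Submodule.span k {π})
    (h2 : π * T ∈ Submodule.span k {π}) : T ∈ Scal k π := by
  obtain ⟨c, hc⟩ := Submodule.mem_span_singleton.1 h1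
  obtain ⟨c', hc'⟩ := Submodule.mem_span_singleton.1 h2
  have h : c • π = c' • π := by
    have h3 : π * (T * π) = π * T * π := (mul_assoc _ _ _).symm
    rwa [← hc, ← hc', mul_smul_comm, smul_mul_assoc, hπ] at h3
  exact ⟨c, hc.symm, by rw [h, hc']⟩

/-- an element of `Scal` commutes with everything of the form `π u π` -/
theorem Scal.comm {π T u : R} (h : T ∈ Scal k π) (hu : π * u * π = u) : T * u = u * T := by
  obtain ⟨c, h1, h2⟩ := h
  calc T * u = T * π * u * π := by conv_lhs => rw [← hu, ← mul_assoc, ← mul_assoc]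
    _ = c • (π * u * π) := by rw [h1, smul_mul_assoc, smul_mul_assoc]
    _ = π * u * (π * T) := by rw [h2, mul_smul_comm]
    _ = u * T := by rw [← mul_assoc, hu]

end Scal

section Cancel

variable {k W A J : Type*} [Field k] [AddCommGroup W] [Module k W] [Finite J]
  [DecidableEq J]

/-- series in finitely many variables over a field have no zero divisors -/
theorem cancel0 {c : (J →₀ ℕ) → k} {X : (J →₀ ℕ) → W} (hc : ∃ e, c e ≠ 0)
    (H : ∀ d, ∑ p ∈ antidiagonal d, c p.1 • X p.2 = 0) (d : J →₀ ℕ) : X d = 0 := by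
  classical
  have := Fintype.ofFinite J
  let _ : LinearOrder J := LinearOrder.lift' (Fintype.equivFin J) (Fintype.equivFin J).injective
  by_contra h0
  obtain ⟨e, he, hmin⟩ := wellFounded_lt.has_min {e : Lex (J →₀ ℕ) | c (ofLex e) ≠ 0}
    ⟨toLex hc.choose, hc.choose_spec⟩
  obtain ⟨f, hf, hmin'⟩ := wellFounded_lt.has_min {f : Lex (J →₀ ℕ) | X (ofLex f) ≠ 0}
    ⟨toLex d, h0⟩
  have h := H (ofLex e + ofLex f)
  rw [sum_eq_single_of_mem (ofLex e, ofLex f)
    (by simp only [HasAntidiagonal.mem_antidiagonal])] at h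
  · exact (smul_ne_zero he hf) h
  · rintro ⟨a, b⟩ hab hne
    by_contra h1
    have ha : e ≤ toLex a := not_lt.1 (hmin (toLex a) (left_ne_zero_of_smul h1))
    have hb : f ≤ toLex b := not_lt.1 (hmin' (toLex b) (right_ne_zero_of_smul h1))
    have hs : toLex a + toLex b = e + f := mem_antidiagonal.1 hab
    obtain ⟨h2, h3⟩ := (add_eq_add_iff_eq_and_eq ha hb).1 hs.symm
    exact hne (Prod.ext h2.symm h3.symm)

/-- the splittings with first part empty -/
theorem sum_antidiagonal_of {M : Type*} [AddCommMonoid M] (I : Multiset A)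
    (f : Multiset A × Multiset A → M) (hf : ∀ q ∈ I.antidiagonal, q.1 ≠ 0 → f q = 0) :
    (I.antidiagonal.map f).sum = f (0, I) := by
  induction I using Multiset.induction_on generalizing f with
  | empty => simp
  | cons a I ih =>
    rw [Multiset.antidiagonal_cons, Multiset.map_add, Multiset.sum_add, Multiset.map_map,
      Multiset.map_map, ih, Multiset.sum_eq_zero, add_zero]
    · rfl
    · intro x hx
      obtain ⟨q, hq, rfl⟩ := Multiset.mem_map.1 hx
      refine hf _ (Multiset.mem_antidiagonal.2 ?_) (Multiset.cons_ne_zero)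
      rw [← Multiset.mem_antidiagonal.1 hq]
      simp
    · intro q hq h0
      refine hf _ (Multiset.mem_antidiagonal.2 ?_) h0
      rw [← Multiset.mem_antidiagonal.1 hq]
      simp

/-- cancellation of a series whose part without insertions is not zero -/
theorem cancel {c : (J →₀ ℕ) → Multiset A → k} {X : (J →₀ ℕ) → Multiset A → W}
    (hc : ∃ e, c e 0 ≠ 0)
    (H : ∀ d (I : Multiset A), ∑ p ∈ antidiagonal d,
      (I.antidiagonal.map fun q => c p.1 q.1 • X p.2 q.2).sum = 0) (d : J →₀ ℕ) (I : Multiset A) :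
    X d I = 0 := by
  induction hn : Multiset.card I using Nat.strong_induction_on generalizing I d with
  | _ n ih =>
    refine cancel0 (c := fun e => c e 0) (X := fun e => X e I) hc (fun d' => ?_) d
    rw [← H d' I]
    refine sum_congr rfl fun p _ => ?_
    rw [sum_antidiagonal_of I (fun q => c p.1 q.1 • X p.2 q.2)]
    intro q hq h0
    have h1 := congrArg Multiset.card (Multiset.mem_antidiagonal.1 hq)
    rw [Multiset.card_add] at h1
    have h2 := Multiset.card_pos.2 h0
    rw [ih _ (by omega) _ _ rfl, smul_zero]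

end Cancel

section Main

variable {k R A J : Type*} [Field k] [CharZero k] [Ring R] [Algebra k R] [Zero A] [Finite J]
  [DecidableEq J]

/-- the sum over all splittings of the degree and of the insertions -/
noncomputable def cv {M : Type*} [AddCommMonoid M] (d : J →₀ ℕ) (I : Multiset A)
    (f : (J →₀ ℕ) → Multiset A → (J →₀ ℕ) → Multiset A → M) : M :=
  ∑ p ∈ antidiagonal d, (I.antidiagonal.map fun q => f p.1 q.1 p.2 q.2).sum

omit [Zero A] [Finite J] in
theorem cv_swap {M : Type*} [AddCommMonoid M] (d : J →₀ ℕ) (I : Multiset A)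
    (f : (J →₀ ℕ) → Multiset A → (J →₀ ℕ) → Multiset A → M) :
    cv d I f = cv d I fun a b c e => f c e a b := by
  unfold cv
  conv_lhs => rw [← HasAntidiagonal.map_swap_antidiagonal, sum_map]
  refine sum_congr rfl fun p _ => ?_
  conv_lhs => rw [← Multiset.map_swap_antidiagonal, Multiset.map_map]
  rfl

omit [Zero A] [Finite J] in
theorem map_cv {M N : Type*} [AddCommMonoid M] [AddCommMonoid N] (φ : M →+ N) (d : J →₀ ℕ)
    (I : Multiset A) (f : (J →₀ ℕ) → Multiset A → (J →₀ ℕ) → Multiset A → M) :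
    φ (cv d I f) = cv d I fun a b c e => φ (f a b c e) := by
  unfold cv
  rw [map_sum]
  refine sum_congr rfl fun p _ => ?_
  rw [map_multiset_sum, Multiset.map_map]
  rfl

omit [Zero A] [Finite J] in
theorem cv_congr {M : Type*} [AddCommMonoid M] {d : J →₀ ℕ} {I : Multiset A}
    {f f' : (J →₀ ℕ) → Multiset A → (J →₀ ℕ) → Multiset A → M}
    (h : ∀ a b c e, a + c = d → f a b c e = f' a b c e) : cv d I f = cv d I f' := by
  unfold cv
  refine sum_congr rfl fun p hp => ?_
  congr 1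
  exact Multiset.map_congr rfl fun q _ => h _ _ _ _ (mem_antidiagonal.1 hp)

omit [Zero A] [Finite J] in
theorem cv_zero {M : Type*} [AddCommMonoid M] (d : J →₀ ℕ) (I : Multiset A) :
    cv d I (fun _ _ _ _ => (0 : M)) = 0 := by
  simp [cv]

/-- **the algebra of (BL)** -/
theorem scal_of {F : (J →₀ ℕ) → Multiset A → R} {op : (J →₀ ℕ) → Multiset A → A} {π : R}
    (hπ : π * π = π) (j : J) (G E : A)
    (wdvv : ∀ d I a b, cv d I (fun d₁ I₁ d₂ I₂ => F d₁ (op d₂ (a ::ₘ b ::ₘ I₂) ::ₘ I₁)) =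
      cv d I fun d₁ I₁ d₂ I₂ => F d₁ (a ::ₘ I₁) * F d₂ (b ::ₘ I₂))
    (F0 : ∀ d I, F d (0 ::ₘ I) = 0)
    (divF : ∀ d I, I ≠ 0 → F d (G ::ₘ I) = (d j : k) • F d I)
    (divF0 : ∀ d, d j = 0 → F d {G} = 0)
    (divo : ∀ d I, d j = 0 → op d (G ::ₘ E ::ₘ I) = 0)
    (h0 : ∀ d I, d j = 0 → I ≠ 0 → F d I ∈ Scal k π)
    (hN : ∃ e, e j = 0 ∧ F e {E} * π ≠ 0) (d : J →₀ ℕ) (I : Multiset A) (hI : I ≠ 0) :
    F d I ∈ Scal k π := by
  classical
  have G0 : ∀ d I, d j = 0 → F d (G ::ₘ I) = 0 := fun d I hd => by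
    by_cases h : I = 0
    · rw [h]
      exact divF0 d hd
    · rw [divF d I h, hd, Nat.cast_zero, zero_smul]
  choose! c hc1 hc2 using fun d I (hd : d j = 0) => h0 d (E ::ₘ I) hd Multiset.cons_ne_zero
  let c' : (J →₀ ℕ) → Multiset A → k := fun d I => if d j = 0 then c d I else 0
  have hc : ∃ e, c' e 0 ≠ 0 := by
    obtain ⟨e, he, h⟩ := hN
    refine ⟨e, fun h1 => h ?_⟩
    have h2 : c e 0 = 0 := by simpa [c', he] using h1
    have h3 := hc1 e 0 he
    rwa [h2, zero_smul] at h3
  let S : Submodule k R := Submodule.span k {π}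
  have hS1 : ∀ T ∈ Scal k π, S.mkQ (T * π) = 0 := by
    rintro T ⟨a, h, -⟩
    exact (Submodule.Quotient.mk_eq_zero _).2 (Submodule.mem_span_singleton.2 ⟨a, h.symm⟩)
  have hS2 : ∀ T ∈ Scal k π, S.mkQ (π * T) = 0 := by
    rintro T ⟨a, -, h⟩
    exact (Submodule.Quotient.mk_eq_zero _).2 (Submodule.mem_span_singleton.2 ⟨a, h.symm⟩)
  induction hn : d j using Nat.strong_induction_on generalizing d I with
  | _ n ih =>
    rcases Nat.eq_zero_or_pos n with rfl | hpos
    · exact h0 d I hn hI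
    have lhs : ∀ (d₁ : J →₀ ℕ) I₁ d₂ I₂, (d₁ + d₂) j = n →
        F d₁ (op d₂ (G ::ₘ E ::ₘ I₂) ::ₘ I₁) ∈ Scal k π := fun d₁ I₁ d₂ I₂ h => by
      by_cases h2 : d₂ j = 0
      · rw [divo d₂ I₂ h2, F0]
        exact zero_mem _
      · exact ih (d₁ j) (by rw [Finsupp.add_apply] at h; omega) d₁ _ Multiset.cons_ne_zero rfl
    let φ₁ : R →+ R ⧸ S := S.mkQ.toAddMonoidHom.comp (AddMonoidHom.mulRight π)
    let φ₂ : R →+ R ⧸ S := S.mkQ.toAddMonoidHom.comp (AddMonoidHom.mulLeft π)
    have key : ∀ (φ : R →+ R ⧸ S) (μ : R → R → R), (∀ T ∈ Scal k π, φ T = 0) → (∀ T, μ T 0 = 0) →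
        (∀ T ∈ Scal k π, ∀ T' ∈ Scal k π, μ T T' ∈ Scal k π) →
        (∀ d I T, d j = 0 → φ (μ (F d (E ::ₘ I)) T) = c d I • φ T) →
        (∀ d I, cv d I (fun d₁ I₁ d₂ I₂ => F d₁ (op d₂ (G ::ₘ E ::ₘ I₂) ::ₘ I₁)) =
          cv d I fun d₁ I₁ d₂ I₂ => μ (F d₁ (E ::ₘ I₁)) (F d₂ (G ::ₘ I₂))) →
        φ (F d (G ::ₘ I)) = 0 := by
      intro φ μ hφ hμ0 hμ hφμ hw
      have := cancel (c := c')
        (X := fun d I => if d j = n then φ (F d (G ::ₘ I)) else 0) hc (fun d' I' => ?_) d I
      · simpa [hn] using this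
      change cv d' I' (fun d₁ I₁ d₂ I₂ =>
        c' d₁ I₁ • if d₂ j = n then φ (F d₂ (G ::ₘ I₂)) else 0) = 0
      by_cases hd' : d' j = n
      · have h1 := congrArg φ (hw d' I')
        rw [map_cv, map_cv, cv_congr (f' := fun _ _ _ _ => 0)
          (fun a b c e h => hφ _ (lhs a b c e (by rw [h, hd']))), cv_zero] at h1
        rw [h1]
        refine cv_congr fun d₁ I₁ d₂ I₂ h => ?_
        have h2 : d₁ j + d₂ j = n := by rw [← hd', ← h, Finsupp.add_apply]
        by_cases h3 : d₁ j = 0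
        · rw [hφμ _ _ _ h3, if_pos (by omega)]
          simp [c', h3]
        · have h4 : c' d₁ I₁ = 0 := by simp [c', h3]
          rw [h4, zero_smul]
          by_cases h5 : d₂ j = 0
          · rw [G0 _ _ h5, hμ0, map_zero]
          · exact (hφ _ (hμ _ (ih (d₁ j) (by omega) d₁ _ Multiset.cons_ne_zero rfl) _
              (ih (d₂ j) (by omega) d₂ _ Multiset.cons_ne_zero rfl))).symm
      · rw [cv_congr (f' := fun _ _ _ _ => 0), cv_zero]
        intro d₁ I₁ d₂ I₂ h
        have h2 : d₁ j + d₂ j = d' j := by rw [← h, Finsupp.add_apply]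
        by_cases h3 : d₁ j = 0
        · rw [if_neg (by omega), smul_zero]
        · simp [c', h3]
    have k1 := key φ₁ (fun a b => b * a) hS1 (fun T => zero_mul T)
      (fun T h T' h' => mul_mem h' h) (fun d I T hd => by
        change S.mkQ (T * F d (E ::ₘ I) * π) = c d I • S.mkQ (T * π)
        rw [mul_assoc, hc1 d I hd, mul_smul_comm, map_smul])
      (fun d I => by rw [wdvv, cv_swap])
    have k2 := key φ₂ (fun a b => a * b) hS2 (fun T => mul_zero T)
      (fun T h T' h' => mul_mem h h') (fun d I T hd => by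
        change S.mkQ (π * (F d (E ::ₘ I) * T)) = c d I • S.mkQ (π * T)
        rw [← mul_assoc, hc2 d I hd, smul_mul_assoc, map_smul])
      (fun d I => by
        rw [← wdvv]
        exact cv_congr fun _ _ _ _ _ => by rw [Multiset.cons_swap])
    have h1 : F d (G ::ₘ I) ∈ Scal k π := mem_Scal_of hπ
      ((Submodule.Quotient.mk_eq_zero _).1 k1) ((Submodule.Quotient.mk_eq_zero _).1 k2)
    have h2 : (n : k) ≠ 0 := Nat.cast_ne_zero.2 hpos.ne'
    rw [divF d I hI, hn] at h1
    have h3 := (Scal k π).smul_mem h1 (n : k)⁻¹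
    rwa [smul_smul, inv_mul_cancel₀ h2, one_smul] at h3

end Main

section Hyc

open Crest.Agent.X262.Ult

theorem antidiagonal_map {α β : Type*} (f : α → β) (I : Multiset α) :
    (I.map f).antidiagonal = I.antidiagonal.map fun q => (q.1.map f, q.2.map f) := by
  induction I using Multiset.induction_on with
  | empty => simp
  | cons a I ih =>
    simp only [Multiset.map_cons, Multiset.antidiagonal_cons, ih, Multiset.map_add,
      Multiset.map_map]
    congr 1 <;> exact Multiset.map_congr rfl fun q _ => by simp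

variable {k : Type*} [Field k] [CharZero k] {J : Type} [Finite J] [DecidableEq J] {H : Type*}
  [CommRing H] [Algebra k H]

/-- all members lie in `A` -/
def In (A : Submodule k H) (l : Multiset H) : Prop := ∀ a ∈ l, a ∈ A

/-- the operator of `(d, l)` preserves `B₀` and is a scalar on `B` -/
def Blk (Q : Hyc k J H) (B B₀ : Submodule k H) (d : J →₀ ℕ) (l : Multiset H) : Prop :=
  (∃ c : k, ∀ x ∈ B, Q.op d (x ::ₘ l) = c • x) ∧ ∀ x ∈ B₀, Q.op d (x ::ₘ l) ∈ B₀

/-- **(BL) for a hypercommutative algebra** -/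
theorem blk_of (Q : Hyc k J H) (A B B₀ : Submodule k H) (hB : Disjoint B B₀)
    (hA : ∀ d l, In A l → Q.op d l ∈ A)
    (hΩ : ∀ d l, In A l → ∀ x ∈ B ⊔ B₀, Q.op d (x ::ₘ l) ∈ B ⊔ B₀)
    (j : J) {G E : H} (hG : G ∈ A) (hE : E ∈ A) (dv : Q.IsDiv G fun d => d j)
    (dv0 : ∀ d, d j = 0 → ∀ x ∈ B ⊔ B₀, Q.op d (x ::ₘ {G}) = 0)
    (dv1 : ∀ d, d j = 0 → Q.op d (G ::ₘ {E}) = 0)
    (h0 : ∀ d l, d j = 0 → In A l → l ≠ 0 → Blk Q B B₀ d l)
    (hN : ∃ e, e j = 0 ∧ ∃ x ∈ B, Q.op e (x ::ₘ {E}) ≠ 0) (d : J →₀ ℕ) (l : Multiset H)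
    (hl : In A l) (hl0 : l ≠ 0) : Blk Q B B₀ d l := by
  classical
  let Ω := B ⊔ B₀
  have hin : ∀ I : Multiset A, In A (I.map (↑)) := fun I a ha => by
    obtain ⟨b, -, rfl⟩ := Multiset.mem_map.1 ha
    exact b.2
  let F : (J →₀ ℕ) → Multiset A → Module.End k Ω := fun d I =>
    (Q.opl d (I.map (↑))).restrict (hΩ d _ (hin I))
  let op : (J →₀ ℕ) → Multiset A → A := fun d I => ⟨Q.op d (I.map (↑)), hA d _ (hin I)⟩
  have hF : ∀ d I (x : Ω), (F d I x : H) = Q.op d (x ::ₘ I.map (↑)) := fun _ _ _ => rfl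
  have hc : IsCompl (B.comap Ω.subtype) (B₀.comap Ω.subtype) := by
    constructor
    · rw [disjoint_iff, ← Submodule.comap_inf, hB.eq_bot, Submodule.comap_bot,
        Submodule.ker_subtype]
    · rw [codisjoint_iff, eq_top_iff]
      rintro ⟨x, hx⟩ -
      obtain ⟨y, hy, z, hz, rfl⟩ := Submodule.mem_sup.1 hx
      exact Submodule.mem_sup.2 ⟨⟨y, Submodule.mem_sup_left hy⟩, hy,
        ⟨z, Submodule.mem_sup_right hz⟩, hz, rfl⟩
  let π : Module.End k Ω := Submodule.projection _ _ hc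
  have p1 : ∀ x : Ω, (x : H) ∈ B → π x = x := fun x hx =>
    Submodule.projection_apply_left hc (⟨x, hx⟩ : B.comap Ω.subtype)
  have p2 : ∀ x : Ω, π x = 0 ↔ (x : H) ∈ B₀ := fun x => Submodule.projection_apply_eq_zero_iff hc
  have p3 : ∀ x : Ω, (π x : H) ∈ B := fun x => Submodule.projection_apply_mem hc x
  have p4 : ∀ x : Ω, ((x - π x : Ω) : H) ∈ B₀ := fun x => (p2 _).1 (by
    rw [map_sub, p1 _ (p3 x), sub_self])
  have hiff : ∀ d (I : Multiset A), F d I ∈ Scal k π ↔ Blk Q B B₀ d (I.map (↑)) := by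
    intro d I
    constructor
    · rintro ⟨c, h1, h2⟩
      refine ⟨⟨c, fun x hx => ?_⟩, fun x hx => ?_⟩
      · have h3 := LinearMap.congr_fun h1 ⟨x, Submodule.mem_sup_left hx⟩
        rw [Module.End.mul_apply, LinearMap.smul_apply, p1 _ hx] at h3
        exact congrArg Subtype.val h3
      · have h3 := LinearMap.congr_fun h2 ⟨x, Submodule.mem_sup_right hx⟩
        rw [Module.End.mul_apply, LinearMap.smul_apply,
          (p2 ⟨x, Submodule.mem_sup_right hx⟩).2 hx, smul_zero] at h3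
        exact (p2 _).1 h3
    · rintro ⟨⟨c, h1⟩, h2⟩
      have h3 : ∀ x, F d I (π x) = c • π x := fun x => Subtype.ext (h1 _ (p3 x))
      refine ⟨c, LinearMap.ext h3, LinearMap.ext fun x => ?_⟩
      have h4 : π (F d I (x - π x)) = 0 := (p2 _).2 (h2 _ (p4 x))
      rw [map_sub, map_sub, h3, map_smul, p1 _ (p3 x), sub_eq_zero] at h4
      exact h4
  obtain ⟨I, rfl⟩ : ∃ I : Multiset A, I.map (↑) = l :=
    ⟨l.attach.map fun x => ⟨x.1, hl x.1 x.2⟩, by simp [Multiset.map_map]⟩
  refine (hiff d I).1 (scal_of (F := F) (op := op) (LinearMap.ext fun x => p1 _ (p3 x)) j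
    ⟨G, hG⟩ ⟨E, hE⟩ (fun d I a b => ?_) (fun d I => ?_) (fun d I hI => ?_) (fun d hd => ?_)
    (fun d I hd => ?_) (fun d I hd hI => ?_) ?_ d I fun h => hl0 (by rw [h, Multiset.map_zero]))
  · ext x
    let φ : Module.End k Ω →+ H :=
      Ω.subtype.toAddMonoidHom.comp (LinearMap.applyₗ (R := k) x).toAddMonoidHom
    change φ _ = φ _
    rw [map_cv, map_cv, cv_swap, cv_swap d I fun a₁ b₁ c e => φ (F a₁ (a ::ₘ b₁) * F c (b ::ₘ e))]
    have h := Q.wdvv d (I.map (↑)) b a x
    simp only [antidiagonal_map, Multiset.map_map] at h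
    convert h using 1
    · refine sum_congr rfl fun p _ => congrArg _ (Multiset.map_congr rfl fun q _ => ?_)
      change Q.op p.2 (x ::ₘ (op p.1 (a ::ₘ b ::ₘ q.1) ::ₘ q.2).map (↑)) = _
      simp only [Multiset.map_cons, Function.comp, op]
      rw [Multiset.cons_swap, Multiset.cons_swap (a : H)]
    · refine sum_congr rfl fun p _ => congrArg _ (Multiset.map_congr rfl fun q _ => ?_)
      change Q.op p.2 (Q.op p.1 (x ::ₘ (b ::ₘ q.1).map (↑)) ::ₘ (a ::ₘ q.2).map (↑)) = _
      simp only [Multiset.map_cons, Function.comp]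
      rw [Multiset.cons_swap (x : H)]
  · ext x
    rw [hF, Multiset.map_cons, Multiset.cons_swap]
    exact Q.op_zero _ _
  · ext x
    rw [hF, Multiset.map_cons, Multiset.cons_swap, dv]
    · rfl
    · have := Multiset.card_pos.2 hI
      rw [Multiset.card_cons, Multiset.card_map]
      omega
  · ext x
    exact dv0 d hd x x.2
  · refine Subtype.ext ?_
    change Q.op d ((_ ::ₘ _ ::ₘ I).map (↑)) = 0
    rw [Multiset.map_cons, Multiset.map_cons]
    by_cases h : I = 0
    · rw [h]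
      exact dv1 d hd
    · have := Multiset.card_pos.2 h
      rw [dv]
      · simp [hd]
      · rw [Multiset.card_cons, Multiset.card_map]
        omega
  · exact (hiff d I).2 (h0 d _ hd (hin I) fun h => hI (Multiset.map_eq_zero.1 h))
  · obtain ⟨e, he, x, hx, h⟩ := hN
    refine ⟨e, he, fun h1 => h ?_⟩
    have h3 := LinearMap.congr_fun h1 ⟨x, Submodule.mem_sup_left hx⟩
    rw [Module.End.mul_apply, p1 _ hx] at h3
    exact congrArg Subtype.val h3

end Hyc

end Crest.Agent.X262.Bl53
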