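import Crest.Agent.X262.Bl53.Defs
import Crest.Agent.X262.Bl53.Alg
import Crest.Agent.X262.Gwb.Typ
import Crest.Agent.X262.Chn.Blk
import Crest.Agent.X262.Int23.Bcg
import Crest.Agent.X262.Kill52.Kun

/-!
# Row 262, (BL) + (PR) (helper53): the class level

* `bc_uni`, `pair` : base change, the pairing over the centre;
* `Dat G b`        : an embedding of the blow-up with the factors `H`, `G` and what is known;
* `Dat.blk`, `Dat.pr`.
-/

set_option autoImplicit false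

noncomputable section

namespace Crest.Agent.X262.Bl53

open Crest.Agent.X277 Crest.Agent.X277.Lef Crest.Agent.X277.AN.G1 Crest.Agent.X277.BD
open Crest.Agent.X277.BD.Br (On oP oP_mem)
open Crest.Agent.X262.Coh Crest.Agent.X262.Gwb Crest.Agent.X262.Chn Crest.Agent.X262.Ult

variable {C : Th} {G : Gw C} {K : Type} [Field K] [Algebra ℂ K]

section Div

variable (hG : G.Ax) {Y : SV} {m : Emb Y} {d : m.J →₀ ℕ} {j k : m.J}
include hG

theorem op_one (hj : d j ≠ 0) (x : C.H Y) : G.op m d (1 ::ₘ {x}) = 0 := by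
  have h1 := hG.dvz m j d (1 ::ₘ {x}) (by simp)
  have h2 : G.op m d (1 ::ₘ m.h C j ::ₘ {x}) = 0 := hG.str m d _ (by simp)
  rw [Multiset.cons_swap] at h2
  exact (smul_eq_zero_iff_right (Nat.cast_ne_zero.2 hj)).1 (h1.symm.trans h2)

theorem op_h (hd : d ≠ 0) (hk : d k = 0) (x : C.H Y) : G.op m d (m.h C k ::ₘ {x}) = 0 := by
  obtain ⟨j, hj⟩ := Finsupp.ne_iff.1 hd
  have h1 := hG.dvz m j d (m.h C k ::ₘ {x}) (by simp)
  have h2 := hG.dvz m k d (m.h C j ::ₘ {x}) (by simp)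
  beta_reduce at h1 h2
  rw [hk, Nat.cast_zero, zero_smul, Multiset.cons_swap] at h2
  exact (smul_eq_zero_iff_right (Nat.cast_ne_zero.2 hj)).1 (h1.symm.trans h2)

end Div

variable (A : C.Ax)

section Bc

include A

/-- base change in a uniform shape -/
theorem bc_uni {D X B : SV} {j : Hom D X} {a : BD ℂ X.F} (hj : IsDv j a) (u : Hom B X) :
    ∃ (ι : Type) (_ : Fintype ι) (E : ι → SV) (v : ∀ i, Hom (E i) B) (w : ∀ i, Hom (E i) D)
      (γ : ∀ i, C.H (E i)), (∀ i z, j.map ((w i).map z) = u.map ((v i).map z)) ∧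
      ∀ x, C.pb u (C.push j x) = ∑ i, C.push (v i) (γ i * C.pb (w i) x) := by
  rcases Int23.bc_gen A hj u with ⟨w, h1, h2⟩ | ⟨ι, _, E, v, w, m, -, h1, h2⟩
  · refine ⟨Unit, inferInstance, fun _ => B, fun _ => idH B, fun _ => w,
      fun _ => C.pb u (C.c1 X a), fun _ z => ?_, fun x => ?_⟩
    · rw [Cns.idM_map, ← h1, Mor.comp_map]
    · rw [h2, Fintype.sum_unique, A.pd.push_id A.man]
  · refine ⟨ι, inferInstance, E, v, w, fun i => (m i : C.H (E i)), fun i z => ?_, fun x => ?_⟩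
    · rw [← Mor.comp_map, h1, Mor.comp_map]
    · rw [h2]
      exact Finset.sum_congr rfl fun i _ => by rw [← nsmul_eq_mul, map_nsmul]

variable (b : Bw K)

omit A in
theorem sq (z : b.E.Pt) : (mor b.ge).map (b.j.map z) = b.i.map (b.π.map z) := by
  have h := congrFun b.comm z
  rwa [Mor.comp_map, Mor.comp_map] at h

theorem pair0 {Q : SV} (g : Hom Q b.Z) (ν : Hom Q (sv b.hi))
    (h : ∀ z, b.i.map (g.map z) = (mor b.ge).map (ν.map z)) (σ τ : C.H b.Z) :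
    C.pb g σ * C.pb ν (b.t C τ) = C.pb ν (b.t C (σ * τ)) := by
  obtain ⟨ι, _, E, v, w, γ, h1, h2⟩ := bc_uni A b.dv ν
  rw [Bw.t_apply, Bw.t_apply, h2, h2, Finset.mul_sum]
  refine Finset.sum_congr rfl fun i _ => ?_
  rw [← A.pd.push_proj', map_mul (C.pb b.π), map_mul (C.pb (w i)), mul_left_comm,
    A.man.pb_sq (μ := g) (ν := v i) (μ' := b.π) (ν' := w i) fun z =>
      b.emb.1 (by rw [h, ← h1, sq])]

/-- **the pairing over the centre** -/
theorem pair {Q : SV} (μ ν : Hom Q (sv b.hi))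
    (h : ∀ z, (mor b.ge).map (μ.map z) = (mor b.ge).map (ν.map z)) (σ τ : C.H b.Z) :
    C.pb μ (b.t C σ) * C.pb ν (b.t C τ) = C.pb μ (b.t C 1) * C.pb ν (b.t C (σ * τ)) := by
  obtain ⟨ι, _, E, v, w, γ, h1, h2⟩ := bc_uni A b.dv μ
  rw [Bw.t_apply C b σ, Bw.t_apply C b 1, h2, h2, Finset.sum_mul, Finset.sum_mul]
  refine Finset.sum_congr rfl fun i _ => ?_
  rw [← A.pd.push_proj, ← A.pd.push_proj, map_one, map_one, mul_one, mul_assoc,
    ← A.man.pb_comp b.π, ← A.man.pb_comp ν, ← A.man.pb_comp ν,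
    pair0 A b _ _ fun z => by rw [Mor.comp_map, Mor.comp_map, ← h, ← h1, sq]]

theorem t_one : b.t C 1 = C.c1 (sv b.hi) b.e := by
  rw [Bw.t_apply, map_one, A.pl0 b.j b.e b.dv]

theorem pb_mul_t (x : C.H (sv b.lo)) (σ : C.H b.Z) :
    C.pb (mor b.ge) x * b.t C σ = b.t C (C.pb b.i x * σ) := by
  rw [Bw.t_apply, Bw.t_apply, ← A.pd.push_proj', b.pb_sq A, map_mul (C.pb b.π)]

theorem pb_i_zero {p q : ℕ} (h : 2 < p ∨ 2 < q) {x : C.H (sv b.lo)} (hx : x ∈ C.typ _ p q) :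
    C.pb b.i x = 0 :=
  (Submodule.eq_bot_iff _).1 ((b.dimZ ▸ h).elim (A.typ.gt b.Z q) (A.typ.gt' A.man b.Z p)) _
    (A.typ.pb b.i x hx)

theorem t_zero (hL : b.LH C) {σ : C.H b.Z} (hσ : σ ∈ C.typ b.Z 2 0)
    (h : ∀ τ ∈ C.typ b.Z 0 2, C.itg _ (b.t C σ * b.t C τ) = 0) : σ = 0 :=
  A.typ.eq_zero_of_typ A.man A.pd hσ fun i j hi hj τ hτ => by
    rw [b.dimZ] at hi hj
    obtain rfl : i = 0 := by omega
    obtain rfl : j = 2 := by omega
    have h1 := h τ hτ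
    rwa [Bw.itg_t A hL, neg_eq_zero] at h1

theorem itg_up_t {x : C.H (sv b.lo)} (hx : x ∈ Om C b.lo) (τ : C.H b.Z) :
    C.itg _ (C.pb (mor b.ge) x * b.t C τ) = 0 := by
  rw [pb_mul_t A, pb_i_zero A b (Or.inl (by decide)) hx, zero_mul, map_zero, map_zero]

/-- a class of type `(3,1)` which is orthogonal to the conjugate block -/
theorem mem_up' (F : Frm C) (hL : b.LH C) {x : C.H (sv b.hi)} (hx : x ∈ Om C b.hi)
    (h : ∀ τ ∈ C.typ b.Z 0 2, C.itg _ (x * b.t C τ) = 0) : x ∈ up C b.ge (Om C b.lo) := by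
  obtain ⟨x₀, h0, _, ⟨σ, hσ, rfl⟩, rfl⟩ := Bw.span A F hL hx
  obtain rfl : σ = 0 := t_zero A b hL hσ fun τ hτ => by
    have h1 := h τ hτ
    rwa [add_mul, map_add, itg_up_t A b h0, zero_add] at h1
  exact ⟨x₀, h0, by simp⟩

theorem disj (hL : b.LH C) : Disjoint (b.blk C) (up C b.ge (Om C b.lo)) := by
  rw [Submodule.disjoint_def]
  rintro _ ⟨σ, hσ, rfl⟩ ⟨x, hx, h⟩
  rw [t_zero A b hL hσ fun τ _ => by rw [← h]; exact itg_up_t A b hx τ, map_zero]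

theorem sup_eq (F : Frm C) (hL : b.LH C) : b.blk C ⊔ up C b.ge (Om C b.lo) = Om C b.hi := by
  refine le_antisymm (sup_le (b.blk_le A) (up_le A b.ge)) fun x hx => ?_
  obtain ⟨x₀, h0, c, hc, rfl⟩ := Bw.span A F hL hx
  rw [add_comm]
  exact Submodule.add_mem_sup hc ⟨x₀, h0, rfl⟩

/-- two classes of type `(3,1)` with the same pairings -/
theorem om_ext (F : Frm C) (hL : b.LH C) {x : C.H (sv b.hi)} (hx : x ∈ Om C b.hi)
    (h1 : ∀ τ ∈ C.typ b.Z 0 2, C.itg _ (x * b.t C τ) = 0)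
    (h2 : ∀ y ∈ C.typ (sv b.lo) 1 3, C.itg _ (x * C.pb (mor b.ge) y) = 0) : x = 0 := by
  obtain ⟨x₀, h0, rfl⟩ := mem_up' A b F hL hx h1
  rw [A.typ.eq_zero_of_typ A.man A.pd h0 fun i j hi hj y hy => by
    have h4 : (sv b.lo).dim = 4 := b.dimK
    obtain rfl : i = 1 := by omega
    obtain rfl : j = 3 := by omega
    rw [← F.deg _ (bim_mor b.ge), map_mul]
    exact h2 y hy, map_zero]

end Bc

variable (G) in
/-- an embedding of the blow-up and what is known about it -/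
structure Dat (b : Bw K) where
  /-- the embedding -/
  m : Emb (sv b.hi)
  /-- the factor of the lower model -/
  jH : m.J
  /-- the factor which contracts the centre -/
  jG : m.J
  lin : ∀ c, (G.Q m).IsLin (C.pb (mor b.ge) c) fun d => d jH = 0
  GE : m.h C jG * b.t C 1 = 0
  /-- the pairing over the centre -/
  pr : ∀ d l, d jH = 0 → ∀ σ τ, C.itg _ (b.t C τ * G.op m d (b.t C σ ::ₘ l)) =
    C.itg _ (b.t C (σ * τ) * G.op m d (b.t C 1 ::ₘ l))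
  noc : ∀ d l, d jG = 0 → d jH ≠ 0 → ∀ σ, σ ∈ C.typ b.Z 2 0 ∨ σ ∈ C.typ b.Z 0 2 →
    G.op m d (b.t C σ ::ₘ l) = 0
  num : ∃ d, d ≠ 0 ∧ d jH = 0 ∧ d jG = 0 ∧
    C.itg _ (b.t C (C.hc b.Z ^ 2) * G.op m d (b.t C 1 ::ₘ {b.t C 1})) ≠ 0

namespace Dat

variable {b : Bw K} (D : Dat G b)

/-- the scalar -/
def κ (d : D.m.J →₀ ℕ) (l : Multiset (C.H (sv b.hi))) : ℂ :=
  -(C.itg _ (b.t C (C.hc b.Z ^ 2) * G.op D.m d (b.t C 1 ::ₘ l)) / b.Z.dgr)

variable (F : Frm C) (hG : G.Ax) (hL : b.LH C) (h42 : C.typ (sv b.hi) 4 2 = ⊥)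
include A F hG hL h42

theorem scal {d : D.m.J →₀ ℕ} (hd : d D.jH = 0) {l : Multiset (C.H (sv b.hi))}
    (hl : In (AA C _) l) {x : C.H (sv b.hi)} (hx : x ∈ b.blk C) :
    G.op D.m d (x ::ₘ l) = D.κ d l • x := by
  obtain ⟨σ, hσ, rfl⟩ := hx
  refine sub_eq_zero.1 (om_ext A b F hL (sub_mem (op_Om A.man A.pd A.typ hG.typ b.dimK h42 _ _ hl (b.t_mem A hσ))
    (Submodule.smul_mem _ _ (b.t_mem A hσ))) (fun τ hτ => ?_) fun y hy => ?_)
  · have h1 : σ * τ ∈ C.dg b.Z b.Z.dim := by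
      rw [b.dimZ]
      exact A.typ.le _ (by norm_num) (A.typ.mul _ hσ hτ)
    rw [sub_mul, map_sub, mul_comm, D.pr d l hd, smul_mul_assoc, map_smul, Bw.itg_t A hL,
      sub_eq_zero]
    conv_lhs => rw [A.pd.top_eq A.man h1, map_smul, smul_mul_assoc, map_smul, b.dimZ]
    simp only [κ, smul_eq_mul]
    ring
  · have h1 : C.pb (mor b.ge) y * b.t C σ = 0 := by
      rw [pb_mul_t A, pb_i_zero A b (Or.inr (by decide)) hy, zero_mul, map_zero]
    rw [mul_comm, mul_sub, ← D.lin y d hd, mul_smul_comm, h1, Hyc.op_zero, smul_zero, sub_zero,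
      map_zero]

theorem keep {d : D.m.J →₀ ℕ} (hd : d D.jG = 0) {l : Multiset (C.H (sv b.hi))}
    (hl : In (AA C _) l) {x : C.H (sv b.hi)} (hx : x ∈ up C b.ge (Om C b.lo)) :
    G.op D.m d (x ::ₘ l) ∈ up C b.ge (Om C b.lo) := by
  refine mem_up' A b F hL (op_Om A.man A.pd A.typ hG.typ b.dimK h42 _ _ hl (up_le A b.ge hx)) fun τ hτ => ?_
  obtain ⟨x, hx, rfl⟩ := hx
  rw [mul_comm, hG.sym]
  by_cases h : d D.jH = 0
  · change C.itg _ (C.pb (mor b.ge) x * _) = 0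
    rw [← D.lin x d h, pb_mul_t A, pb_i_zero A b (Or.inl (by decide)) hx, zero_mul, map_zero,
      Hyc.op_zero, map_zero]
  · rw [D.noc d l hd h τ (Or.inr hτ), mul_zero, map_zero]

omit F hG hL h42 in
theorem t_one_mem : b.t C 1 ∈ AA C (sv b.hi) := by
  rw [t_one A]
  exact Kill52.mem_AA (A.typ.c1 _ _ b.dv.on)

omit A F hG hL h42 in
theorem κ_ne : ∃ d, d ≠ 0 ∧ d D.jH = 0 ∧ d D.jG = 0 ∧ D.κ d {b.t C 1} ≠ 0 :=
  D.num.imp fun _ h => ⟨h.1, h.2.1, h.2.2.1, neg_ne_zero.2 (div_ne_zero h.2.2.2 b.Z.dgr_ne)⟩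

/-- **(BL)** for one embedding -/
theorem blk (d : D.m.J →₀ ℕ) (l : Multiset (C.H (sv b.hi)))
    (hl : In (AA C _) l) (hl0 : l ≠ 0) {x : C.H (sv b.hi)} (hx : x ∈ b.blk C) :
    ∃ c : ℂ, G.op D.m d (x ::ₘ l) = c • x := by
  by_cases h0 : x = 0
  · exact ⟨0, by rw [h0, smul_zero]; exact (G.Q D.m).op_zero _ _⟩
  obtain ⟨a1, -, a3⟩ := opA A.man A.pd A.typ hG.typ _ D.m
  have hE : In (AA C (sv b.hi)) {b.t C 1} := fun a ha =>
    Multiset.mem_singleton.1 ha ▸ t_one_mem A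
  refine (blk_of (G.Q D.m) (AA C _) (b.blk C) (up C b.ge (Om C b.lo)) (disj A b hL)
    (fun d l hl => ?_) (fun d l hl x hx => ?_) D.jG (a1 D.jG) (t_one_mem A) (hG.dvz D.m D.jG)
    (fun d hd x hx => ?_) (fun d hd => ?_) (fun d l hd hl _ => ⟨?_, fun x hx => ?_⟩) ?_
    d l hl hl0).1.imp fun c hc => hc x hx
  · rcases Nat.lt_or_ge (Multiset.card l) 2 with h | h
    · rw [show (G.Q D.m).op d l = 0 from hG.low D.m d l h]
      exact zero_mem _
    · exact a3 d l hl h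
  · rw [sup_eq A b F hL] at hx ⊢
    exact op_Om A.man A.pd A.typ hG.typ b.dimK h42 _ _ hl hx
  · rw [sup_eq A b F hL] at hx
    rcases eq_or_ne d 0 with rfl | h
    · exact ((G.Q D.m).cl x _).trans (Kill52.kl31 A.typ b.dimK h42 hx 1 one_pos _
        (A.typ.c1 _ _ (D.m.reg D.jG).2))
    · exact (congrArg _ (Multiset.cons_swap x _ 0)).trans (op_h hG h hd x)
  · rcases eq_or_ne d 0 with rfl | h
    · exact ((G.Q D.m).cl _ _).trans D.GE
    · exact op_h hG h hd _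
  · by_cases h : d D.jH = 0
    · exact ⟨_, fun x hx => D.scal A F hG hL h42 h hl hx⟩
    · refine ⟨0, ?_⟩
      rintro _ ⟨σ, hσ, rfl⟩
      rw [zero_smul]
      exact D.noc d l hd h σ (Or.inl hσ)
  · exact D.keep A F hG hL h42 hd hl hx
  · obtain ⟨e, -, e1, e2, e3⟩ := D.κ_ne
    refine ⟨e, e2, x, hx, ?_⟩
    rw [show (G.Q D.m).op e (x ::ₘ {b.t C 1}) = _ from D.scal A F hG hL h42 e1 hE hx]
    exact smul_ne_zero e3 h0

include D in
/-- **(PR)** -/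
theorem pr' {x : C.H (sv b.hi)} (hx : x ∈ Om C b.hi) (h : G.Eig _ x) :
    x ∈ up C b.ge (Om C b.lo) ∨ x ∈ b.blk C := by
  obtain ⟨x₀, h0, y, hy, rfl⟩ := Bw.span A F hL hx
  obtain ⟨e, e0, e1, -, e3⟩ := κ_ne D
  have hE : In (AA C (sv b.hi)) {b.t C 1} := fun a ha =>
    Multiset.mem_singleton.1 ha ▸ t_one_mem A
  obtain ⟨j, hj⟩ := Finsupp.ne_iff.1 e0
  obtain ⟨c, hc⟩ := h D.m e {b.t C 1} hE
  have h1 := D.lin x₀ e e1 1 {b.t C 1}
  rw [mul_one, show (G.Q D.m).op e _ = 0 from op_one hG hj _, mul_zero] at h1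
  rw [Gw.op, Hyc.add, h1, zero_add, show (G.Q D.m).op e (y ::ₘ {b.t C 1}) = _ from
    D.scal A F hG hL h42 e1 hE hy, smul_add] at hc
  have h2 : (D.κ e {b.t C 1} - c) • y = c • C.pb (mor b.ge) x₀ := by
    rw [sub_smul, hc, add_sub_cancel_right]
  have h3 : (D.κ e {b.t C 1} - c) • y = 0 := Submodule.disjoint_def.1 (disj A b hL) _
    (Submodule.smul_mem _ _ hy) (h2 ▸ Submodule.smul_mem _ _ ⟨x₀, h0, rfl⟩)
  rcases smul_eq_zero.1 h3 with h4 | h4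
  · rw [h3, ← sub_eq_zero.1 h4] at h2
    rw [(smul_eq_zero.1 h2.symm).resolve_left e3, zero_add]
    exact Or.inr hy
  · rw [h4, add_zero]
    exact Or.inl ⟨x₀, h0, rfl⟩

end Dat

end Crest.Agent.X262.Bl53
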