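import Crest.Agent.X262.Gwb.Defs
import Crest.Agent.X262.Chn.Defs
import Crest.Agent.X262.Vb.Cfg
import Crest.Agent.X262.Blow.Mod

/-!
# Row 262, (BL) + (PR) (helper53): the statements

* `OnT`, `IsPt`, `Lnk` : generic points which lie on a connected genus zero curve;
* `SUPJ G`             : the support axiom of the class-level invariants;
* `LnkEqStmt`, `NocStmt` : two geometric facts about `Lnk`;
* `tup2`, `NUME G`     : the invariant of the exceptional line is not zero;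
* `IsG b`, `BlowGStmt` : blow-ups given by generators;
* `Sp`                 : the special blow-ups.
-/

set_option autoImplicit false

noncomputable section

namespace Crest.Agent.X262.Bl53

open Crest.Agent.X277 Crest.Agent.X277.Lef Crest.Agent.X277.AN.G1 Crest.Agent.X277.BD
open Crest.Agent.X277.BD.Br (On oP)
open Crest.Agent.X277.Res.Out (Coords)
open Crest.Agent.X262.Coh Crest.Agent.X262.Gwb Crest.Agent.X262.Chn
open Crest.Agent.X262.Vb (Pnt MH pv)
open Crest.Agent.X262.Bub96 (Tr)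
open Crest.Agent.X262.Blow (SmC Gens)
open scoped KaehlerDifferential

/-- the point `y` satisfies all multihomogeneous equations of the tuples -/
def OnT {F J : Type} [Field F] [Algebra ℂ F] [DecidableEq J] (T : J → Tup F) {L : Type} [Field L]
    [Algebra ℂ L] (y : Pnt (fun j => (T j).io) L) : Prop :=
  ∀ q κ, MH q κ → pv (io := fun j => (T j).io) (fun j => (T j).y) q = 0 → pv y q = 0

/-- `y` (with `NZ y`) are coordinates of the image of the generic point of `Q` -/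
def IsPt {Q Y : SV} {J : Type} (T : J → Tup Y.F) (μ : Hom Q Y) {L : Type} [Field L] [Algebra ℂ L]
    (α : Q.F →ₐ[ℂ] L) (y : Pnt (fun j => (T j).io) L) : Prop :=
  ∀ j, ∃ (u : Y.F) (c : L), (∀ i, (T j).y i / u ∈ μ.p.O) ∧
    ∀ i, y j i = c * α (μ.p.π ((T j).y i / u))

/-- the images of the generic point of `Q` by `μ` and `ν` lie on a connected genus zero curve of
multidegree `d` in `Y` -/
def Lnk {Q Y : SV} (m : Pre Y) (d : m.J → ℕ) (μ ν : Hom Q Y) : Prop :=
  ∃ (L : Type) (_ : Field L) (_ : Algebra ℂ L) (_ : IsAlgClosed L) (α : Q.F →ₐ[ℂ] L)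
    (t : Tr L m.J fun j => (m.T j).io) (x x' : t.Pt), t.OK ∧ t.deg = d ∧
    (∀ u, OnT m.T (t.ev u)) ∧ IsPt m.T μ α (t.ev x) ∧ IsPt m.T ν α (t.ev x')

variable {C : Th}

/-- **support axiom** -/
def SUPJ (G : Gw C) : Prop :=
  ∀ {Y : SV} (m : Emb Y) (d : m.J →₀ ℕ) (x y x' y' : C.H Y) (l : Multiset (C.H Y)),
    (∀ (Q : SV) (μ ν : Hom Q Y), Lnk m.toPre d μ ν →
      C.pb μ x * C.pb ν y = C.pb μ x' * C.pb ν y') →
    C.itg Y (y * G.op m d (x ::ₘ l)) = C.itg Y (y' * G.op m d (x' ::ₘ l))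

/-- curves of degree zero in the factor of a lower model are contracted -/
def LnkEqStmt : Prop :=
  ∀ (K : Type) [Field K] [Algebra ℂ K] (U V : PModel ℂ K) (h : Ge U V) (m : Pre (sv U))
    (j : m.J), m.T j = ownT (sv V) → ∀ (d : m.J → ℕ), d j = 0 → ∀ (Q : SV) (μ ν : Hom Q (sv U)),
    Lnk m d μ ν → (Mor.comp (mor h) μ).map = (Mor.comp (mor h) ν).map

/-- the tuple `(1, t₀, t₁)` -/
def tupG {K : Type} [Field K] (t : Fin 2 → K) : Tup K := ⟨Fin 3, ![1, t 0, t 1]⟩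

/-- **no curve**: `Z ⊆ V` has a pluricanonical form and is a generically reduced component of a
fibre of `(1 : t₀ : t₁)`; a family of curves which are contracted by `(1 : t₀ : t₁)` and not
contracted in `V` has marked points which do not cover `Z` -/
def NocStmt : Prop :=
  ∀ (K : Type) [Field K] [Algebra ℂ K] (U V : PModel ℂ K) (h : Ge U V) (Z : SV) (i : Hom Z (sv V))
    (t : Fin 2 → K), IsEmb i →
    (∀ z : Z.Pt, ∀ f ∈ i.p.O, ∃ c ∈ (lp (i.map z)).O, i.p.π c ≠ 0 ∧ c * f ∈ (lp (i.map z)).O) →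
    Coords i.p.O t →
    (∃ (n : ℕ) (β : Module.Basis (Fin n) Z.F Ω[Z.F⁄ℂ]) (k : ℕ) (ω : Z.F),
      0 < k ∧ ω ∈ Z.P.H β k 0 ∧ ω ≠ 0) →
    ∀ (m : Pre (sv U)) (jH jG : m.J), m.T jH = ownT (sv V) → m.T jG = tupG t →
    ∀ (d : m.J → ℕ), d jG = 0 → d jH ≠ 0 → ∀ (Q : SV) (μ ν : Hom Q (sv U)), Lnk m d μ ν →
      ¬ Set.range i.map ⊆ Set.range (Mor.comp (mor h) μ).map

/-- the two tuples which embed a blow-up -/
def tup2 {K κ : Type} [Field K] [Algebra ℂ K] [Field κ] [Algebra ℂ κ] {P : PModel ℂ K}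
    {q : Plc K κ} (g : Gens P q) : Bool → Tup K
  | false => ⟨Fin (P.N + 1), P.y⟩
  | true => ⟨Fin (g.M + 1), g.f⟩

/-- **the invariant of the exceptional line** -/
def NUME (G : Gw C) : Prop :=
  ∀ (K κ : Type) [Field K] [Algebra ℂ K] [Field κ] [Algebra ℂ κ] (P : PModel ℂ K) (q : Plc K κ)
    (h : SmC P q 2 2) (g : Gens P q) (r : ∀ j, (tup2 g j).Reg (sv (g.bl h))) e n c,
    let m : Emb (sv (g.bl h)) := { J := Bool, T := tup2 g, reg := r, emb := e, nt := n, cod := c }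
    C.itg _ (m.h C false ^ 2 * m.h C true *
      G.op m (Finsupp.single true 1) (m.h C true ::ₘ {m.h C true})) ≠ 0

variable {K : Type} [Field K] [Algebra ℂ K]

/-- the blow-up is given by generators of the twisted ideal sheaf -/
def IsG (b : Bw K) : Prop :=
  ∃ (h : SmC b.lo b.i.p 2 2) (g : Gens b.lo b.i.p), b.hi = g.bl h ∧
    b.e = g.m • oP b.lo - mxf ℂ g.f

/-- blow-ups given by generators exist -/
def BlowGStmt (C : Th) : Prop :=
  ∀ (K : Type) [Field K] [Algebra ℂ K] (V : PModel ℂ K) (O : Subalgebra ℂ K), Qt.SmZ V O 4 2 →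
    ∃ b : Bw K, b.lo = V ∧ b.i.p.O = O ∧ b.LH C ∧ IsG b

/-- the special blow-ups -/
def Sp (C : Th) (b : Bw K) : Prop :=
  b.LH C ∧ IsG b ∧ ∃ t : Fin 2 → K, Coords b.i.p.O t ∧ mxf ℂ ![1, t 0, t 1] ∈ On b.lo

theorem Sp.lh {b : Bw K} (h : Sp C b) : b.LH C := h.1

theorem Sp.ex (hB : BlowGStmt C) (V : PModel ℂ K) (O : Subalgebra ℂ K) (t : Fin 2 → K)
    (h : Qt.SmZ V O 4 2) (ht : Coords O t) (hf : mxf ℂ ![1, t 0, t 1] ∈ On V) :
    ∃ b : Bw K, Sp C b ∧ Ge b.lo V ∧ b.i.p.O = O := by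
  obtain ⟨b, rfl, rfl, h1, h2⟩ := hB K V O h
  exact ⟨b, ⟨h1, h2, t, ht, hf⟩, BD.Br.oP_mem, rfl⟩

end Crest.Agent.X262.Bl53
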