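import Crest.Agent.X262.Bl53.Cls
import Crest.Agent.X262.End36.Main
import Crest.Agent.X262.Rc72.Main

/-!
# Row 262, (BL) + (PR) (helper53): the embedding of the blow-up, the theorem

* `reg2`, `emb2`, `nt2`, `cod2` : the two tuples embed the blow-up;
* `exists_dat`                  : the data of `Bl53/Cls`;
* `blStmt_of`                   : `Gwb.BlStmt`.
-/

set_option autoImplicit false

noncomputable section

namespace Crest.Agent.X262.Bl53

open Crest.Agent.X277 Crest.Agent.X277.Lef Crest.Agent.X277.AN.G1 Crest.Agent.X277.BD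
open Crest.Agent.X277.BD.Br
open Crest.Agent.X277.Res.Out (Coords)
open Crest.Agent.X262.Coh Crest.Agent.X262.Gwb Crest.Agent.X262.Chn Crest.Agent.X262.Ult
open Crest.Agent.X262.Blow
open MvPolynomial
open scoped KaehlerDifferential

variable {K : Type} [Field K] [Algebra ℂ K]

section Two

variable {κ : Type} [Field κ] [Algebra ℂ κ] {P : PModel ℂ K} {q : Plc K κ} (h : SmC P q 2 2)
  (g : Gens P q)

theorem at_y' {x : Pts (g.bl h)} {i : Fin (P.N + 1)} (hi : (g.r h).map x ∈ pat P i) :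
    At (mxf ℂ P.y) x (P.y i) := at_mxf (P.y_ne i) fun l => (Gens.r_dom x).le (y_mem hi l)

theorem reg2 : ∀ j, (tup2 g j).Reg (sv (g.bl h))
  | false => ⟨⟨(0 : Fin (P.N + 1)), P.y_ne 0⟩, fun x =>
      (exists_pat ((g.r h).map x)).elim fun _ hi => ⟨_, at_y' h g hi⟩⟩
  | true => ⟨⟨(0 : Fin (g.M + 1)), g.ne 0⟩, fun x =>
      (Gens.exists_gen (G := g) (h := h) x).elim fun j hj => ⟨_, at_mxf (g.ne j) hj⟩⟩

theorem emb2 : End36.IsE (Y := sv (g.bl h)) (tup2 g) := by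
  intro x f hf
  obtain ⟨i, hi⟩ := exists_pat ((g.r h).map x)
  obtain ⟨j, hj⟩ := Gens.exists_gen x
  have h1 : chB (P.A i) g.f j ≤ Algebra.adjoin ℂ (crdAt (Y := sv (g.bl h)) (tup2 g) x) := by
    refine chB_le (Algebra.adjoin_mono ?_) fun k =>
      Algebra.subset_adjoin ⟨true, k, j, at_mxf (g.ne j) hj, rfl⟩
    rintro _ ⟨l, rfl⟩
    exact ⟨false, l, i, at_y' h g hi, rfl⟩
  obtain ⟨a, ha, c, hc, h2⟩ := (Gens.of_gen hi hj).loc f hf
  exact ⟨a, h1 ha, c, h1 hc, h2⟩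

include h in
theorem nt2 : ∀ j, Nontrivial (tup2 g j).io := by
  obtain ⟨x, hx⟩ := h.ne
  obtain ⟨s, w, ha⟩ := h.crd x hx
  obtain ⟨i, hi⟩ := exists_pat x
  rintro (_ | _)
  · refine not_subsingleton_iff_nontrivial.1 fun h0 : Subsingleton (Fin (P.N + 1)) => ?_
    have h1 : P.A i ≤ ⊥ := Algebra.adjoin_le (by
      rintro _ ⟨j, rfl⟩
      obtain rfl := Subsingleton.elim i j
      change P.y i / P.y i ∈ (⊥ : Subalgebra ℂ K)
      rw [div_self (P.y_ne i)]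
      exact one_mem _)
    obtain ⟨a, h2, c, h3, h4, h5⟩ := (mem_lp_iff hi).1 (ha.s_mem 0)
    obtain ⟨a, rfl⟩ := Algebra.mem_bot.1 (h1 h2)
    have h6 := congrArg (lp x).v h5
    rw [LP.v_mul _ (ha.s_mem 0) (A_le hi h3), LP.v_alg, show (lp x).v (s 0) = 0 from ha.ev_s 0,
      zero_mul] at h6
    rw [← h6, map_zero] at h5
    exact mul_ne_zero (ha.s_ne 0) (LP.ne_zero_of_ne h4) h5
  · refine not_subsingleton_iff_nontrivial.1 fun h0 : Subsingleton (Fin (g.M + 1)) => ?_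
    have h1 : ∀ c : ℂ, ev (s 1 / s 0) x = c := fun c => by
      obtain ⟨x', rfl, -, h2⟩ := Gens.exists_dir (G := g) (h := h) ha (l := 0) (ξ := ![1, c]) rfl
      obtain ⟨j, hj⟩ := Gens.exists_of x' hi
      have h3 := eq_of_of hj (Gens.r_dom x') (chB_le (A_le hi) fun k => by
        rw [Subsingleton.elim k j, div_self (g.ne j)]
        exact one_mem _)
      exact (congrArg (fun L : LP K => L.v (s 1 / s 0)) h3).trans (h2 1)
    exact zero_ne_one ((h1 0).symm.trans (h1 1))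

theorem wh_rename {J : Type} [DecidableEq J] {io : J → Type} (j : J) {p : MvPolynomial (io j) ℂ}
    {k : ℕ} (hp : p.IsHomogeneous k) : (rename (Sigma.mk j) p).IsWeightedHomogeneous
      (fun v : Σ j, io j => (Pi.single v.1 1 : J → ℕ)) (Pi.single j k) := by
  intro d hd
  obtain ⟨d, rfl, hd'⟩ := coeff_rename_ne_zero _ p d hd
  rw [← hp hd', Finsupp.weight_apply, Finsupp.weight_apply,
    Finsupp.sum_mapDomain_index (by simp) (by simp [add_smul])]
  funext j'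
  rcases eq_or_ne j' j with rfl | hj
  · simp [Finsupp.sum]
  · simp [Finsupp.sum, hj]

theorem exists_form {a : K} (ha : a ∈ P.A 0) : ∃ (k : ℕ) (p : MvPolynomial (Fin (P.N + 1)) ℂ),
    p.IsHomogeneous k ∧ aeval P.y p = P.y 0 ^ k * a := by
  obtain ⟨p, rfl⟩ : a ∈ (aeval (R := ℂ) fun j => P.y j / P.y 0).range := by
    rw [← Algebra.adjoin_range_eq_range_aeval]
    exact ha
  obtain ⟨k, H, h1, r, h2⟩ := exists_homog 0 p
  refine ⟨k, H, h1, ?_⟩
  have h3 := congrArg (aeval (R := ℂ) fun j => P.y j / P.y 0) h2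
  rw [map_sub, map_mul, map_sub, aeval_X, map_one, div_self (P.y_ne 0), sub_self, zero_mul,
    sub_eq_zero] at h3
  have h4 := Rc72.aeval_mul h1 (P.y 0) fun j => P.y j / P.y 0
  simp only [mul_div_cancel₀ _ (P.y_ne 0)] at h4
  rw [h4, h3]
  rfl

include h in
theorem cod2 : ∃ (r : MvPolynomial (Σ j, (tup2 g j).io) ℂ) (k : Bool → ℕ), r ≠ 0 ∧
    r.IsWeightedHomogeneous (fun v => (Pi.single v.1 1 : Bool → ℕ)) k ∧
    aeval (fun v : Σ j, (tup2 g j).io => (tup2 g v.1).y v.2) r = 0 := by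
  obtain ⟨(a : Fin (g.M + 1)), (b : Fin (g.M + 1)), hab⟩ := nt2 h g true
  obtain ⟨k, p, p1, p2⟩ := exists_form (g.mem a 0)
  obtain ⟨k', p', p1', p2'⟩ := exists_form (g.mem b 0)
  have h0 := P.y_ne 0
  refine ⟨X ⟨true, a⟩ * rename (Sigma.mk false) (p' * X (0 : Fin (P.N + 1)) ^ k) -
    X ⟨true, b⟩ * rename (Sigma.mk false) (p * X (0 : Fin (P.N + 1)) ^ k'),
    Pi.single true 1 + Pi.single false (k' + k), fun h1 => ?_, ?_, ?_⟩
  · have h2 := congrArg (aeval fun v : Σ j, (tup2 g j).io =>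
      (match v with
        | ⟨false, i⟩ => P.y i
        | ⟨true, i⟩ => if i = a then 1 else 0 : K)) h1
    simp only [map_sub, map_mul, aeval_X, aeval_rename, if_true, if_neg hab.symm,
      one_mul, zero_mul, sub_zero, map_zero] at h2
    change aeval P.y (p' * X (0 : Fin (P.N + 1)) ^ k) = 0 at h2
    rw [map_mul, map_pow, aeval_X] at h2
    refine mul_ne_zero ?_ (pow_ne_zero k h0) h2
    exact (p2' ▸ mul_ne_zero (pow_ne_zero _ h0) (g.g_ne 0 b) : aeval P.y p' ≠ 0)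
  · refine (weightedHomogeneousSubmodule ℂ _ _).sub_mem
      ((isWeightedHomogeneous_X _ _ _).mul (wh_rename (io := fun j => (tup2 g j).io) false
        (p1'.mul (isHomogeneous_X_pow _ _))))
      ((isWeightedHomogeneous_X _ _ _).mul (wh_rename (io := fun j => (tup2 g j).io) false ?_))
    exact Nat.add_comm k k' ▸ p1.mul (isHomogeneous_X_pow _ _)
  · simp only [map_sub, map_mul, aeval_X, aeval_rename]
    change g.f a * aeval P.y (p' * X (0 : Fin (P.N + 1)) ^ k) -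
      g.f b * aeval P.y (p * X (0 : Fin (P.N + 1)) ^ k') = 0
    rw [map_mul, map_mul, map_pow, map_pow, aeval_X, p2, p2']
    ring

end Two

variable {C : Th} {G : Gw C}

/-- the number for a model which is equal to the blow-up -/
theorem num2 (hN : NUME G) {κ : Type} [Field κ] [Algebra ℂ κ] {P U : PModel ℂ K} {q : Plc K κ}
    (h : SmC P q 2 2) (g : Gens P q) (hU : U = g.bl h) :
    ∃ (m : Emb (sv U)) (jH j₂ : m.J) (d : m.J →₀ ℕ), m.T jH = ownT (sv P) ∧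
      (m.T j₂).bd = mxf ℂ g.f ∧ d jH = 0 ∧ d j₂ ≠ 0 ∧
      C.itg _ (m.h C jH ^ 2 * m.h C j₂ * G.op m d (m.h C j₂ ::ₘ {m.h C j₂})) ≠ 0 := by
  subst hU
  have h1 := hN K κ P q h g (reg2 h g) (emb2 h g) (nt2 h g) (cod2 h g)
  let m : Emb (sv (g.bl h)) :=
    { J := Bool, T := tup2 g, reg := reg2 h g, emb := emb2 h g, nt := nt2 h g, cod := cod2 h g }
  refine ⟨m, false, true, Finsupp.single true 1, rfl, rfl, ?_, ?_, h1⟩
  · exact Finsupp.single_eq_of_ne Bool.false_ne_true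
  · exact Finsupp.single_eq_same.trans_ne one_ne_zero

theorem rs_mor {U V : PModel ℂ K} (h : Ge U V) (t : Tup K) : Rs (mor h) t t :=
  ⟨Equiv.refl _, 1, 1, fun _ => Algebra.mem_top, fun i => by simp [mor_p]⟩

section Fib

variable (b : Bw K) {t : Fin 2 → K} (ht : Coords b.i.p.O t) (hf : mxf ℂ ![1, t 0, t 1] ∈ On b.lo)
include ht hf

theorem at_one (z : b.Z.Pt) : At (mxf ℂ ![1, t 0, t 1]) (b.i.map z) 1 := by
  obtain ⟨u, hu⟩ := hf (b.i.map z)
  obtain ⟨a, ha⟩ := hu.exists_mxf ⟨0, by simp⟩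
  have h1 : ∀ l, ![1, t 0, t 1] a ≠ t l := fun l hl => (ht.van l).2
    ⟨hl ▸ ha.ne, (ht.van l).1, by
      have h2 := b.i.mem_O (ha.div_mem (mem_Sec_mxf _ 0))
      rwa [hl, Matrix.cons_val_zero, one_div] at h2⟩
  fin_cases a
  · exact ha
  · exact absurd rfl (h1 0)
  · exact absurd rfl (h1 1)

theorem pb_G (A : C.Ax) : C.pb b.i (C.c1 (sv b.lo) (mxf ℂ ![1, t 0, t 1])) = 0 := by
  rw [A.man.c1_pb b.i _ hf 0 ⟨1, fun z u hu => ?_⟩, A.man.c1_zero]
  have h1 := hu.ev_div_ne (at_one b ht hf z)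
  rw [b.i.ev_map (LP.mem_of_ne h1)] at h1
  simpa using (at_zero z).mul_unit h1

end Fib

theorem exists_two (A : C.Ax) {Z : SV} (β : Module.Basis (Fin 2) Z.F Ω[Z.F⁄ℂ])
    (h : C.typ Z 2 0 ≠ ⊥) : ∃ ω ∈ Z.P.H β 1 0, ω ≠ 0 := by
  rw [← Sec_k, one_smul, ← Submodule.ne_bot_iff]
  intro h0
  have := A.pd.fin Z
  have h1 := A.pg Z 1 β
  rw [h0, finrank_bot] at h1
  exact h (Submodule.finrank_eq_zero.1 h1)

variable (A : C.Ax) (F : Frm C) (hG : G.Ax) (hS : SUPJ G) (hN : NUME G) (h₁ : LnkEqStmt)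
  (h₂ : NocStmt)
include A F hG hS hN h₁ h₂

theorem exists_dat {b : Bw K} (hb : Sp C b) : Nonempty (Dat G b) := by
  obtain ⟨-, ⟨h, g, e1, e2⟩, t, ht, hf⟩ := hb
  obtain ⟨m₀, jH, j₂, d₀, hH, hj₂, d1, d2, d3⟩ := num2 hN h g e1
  have rG : (tupG t).Reg (sv b.lo) := ⟨⟨(0 : Fin 3), one_ne_zero⟩, hf⟩
  let m := End36.add m₀ (J := Unit) (fun _ => tupG t)
    (fun _ => End36.rs_reg (rs_mor b.ge _) rG.1 rG) fun _ => (inferInstance : Nontrivial (Fin 3))
  have lin : ∀ c, (G.Q m).IsLin (C.pb (mor b.ge) c) fun d => d (.inl jH) = 0 := fun c d hd =>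
    hG.mov m (mor b.ge) (End36.ownP _) (fun _ => .inl jH)
      (fun _ => by rw [show m.T (.inl jH) = _ from hH]; exact rs_mor b.ge _) c d fun _ => hd
  have eG : m.h C (.inr ()) = C.pb (mor b.ge) (C.c1 (sv b.lo) (mxf ℂ ![1, t 0, t 1])) :=
    (End36.rs_pb_c1 A.man (rs_mor b.ge _) rG.1 rG).symm
  have eH : m.h C (.inl jH) = C.pb (mor b.ge) (C.hc (sv b.lo)) := by
    rw [Pre.h, show m.T (.inl jH) = _ from hH]
    exact (End36.rs_pb_c1 A.man (rs_mor b.ge _) (End36.reg_own _).1 (End36.reg_own _)).symm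
  have pr : ∀ d l, d (Sum.inl jH) = 0 → ∀ σ τ,
      C.itg _ (b.t C τ * G.op m d (b.t C σ ::ₘ l)) =
        C.itg _ (b.t C (σ * τ) * G.op m d (b.t C 1 ::ₘ l)) := fun d l hd σ τ =>
    hS m d _ _ _ _ l fun Q μ ν hl => pair A b μ ν (fun z => by
      have h3 := congrFun (h₁ K _ _ b.ge m.toPre (.inl jH) hH d hd Q μ ν hl) z
      rwa [Mor.comp_map, Mor.comp_map] at h3) σ τ
  refine ⟨⟨m, .inl jH, .inr (), lin, ?_, pr, fun d l hd hd' σ hσ => ?_, ?_⟩⟩
  · rw [eG, pb_mul_t A, pb_G b ht hf A, zero_mul, map_zero]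
  · rcases eq_or_ne σ 0 with rfl | h0
    · rw [map_zero]
      exact Hyc.op_zero _ _ _
    obtain ⟨β⟩ := h.exists_basis'
    obtain ⟨ω, w1, w2⟩ := exists_two A β (hσ.elim
      (fun h3 => (Submodule.ne_bot_iff _).2 ⟨σ, h3, h0⟩) fun h3 => (Submodule.ne_bot_iff _).2
        ⟨_, A.typ.cj _ σ h3, fun h4 => h0 (by rw [← A.man.cj_cj _ σ, h4, map_zero])⟩)
    refine (A.pd _).2 _ fun y => ?_
    rw [mul_comm, hS m d _ y 0 y l fun Q μ ν hl => ?_, Gw.op, Hyc.op_zero, mul_zero, map_zero]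
    rw [map_zero, Bw.t_apply, F.bc b.j b.e μ b.dv _ fun E v w hw => ?_]
    have h3 : ¬ Function.Surjective (Mor.comp b.π w).map := fun h3 =>
      h₂ K _ _ b.ge b.Z b.i t b.emb b.lcl ht ⟨2, β, 1, ω, one_pos, w1, w2⟩ m.toPre (.inl jH)
        (.inr ()) hH rfl d hd hd' Q μ ν hl (by
          rintro _ ⟨z, rfl⟩
          obtain ⟨e, rfl⟩ := h3 z
          have h4 := congrFun hw e
          rw [Mor.comp_map, Mor.comp_map] at h4
          exact ⟨v.map e, by rw [Mor.comp_map, Mor.comp_map, ← h4, sq]⟩)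
    rw [← A.man.pb_comp]
    rcases hσ with hσ | hσ
    · exact F.van _ h3 0 σ (by rwa [b.dimZ])
    · rw [← A.man.cj_cj _ σ, A.man.cj_pb, F.van _ h3 0 _ (by rw [b.dimZ]; exact A.typ.cj _ σ hσ),
        map_zero]
  · obtain ⟨s, s1, -, s3⟩ := hG.emb m₀ m Sum.inl Sum.inl_injective (fun _ => rfl) d₀
      (m₀.h C j₂ ::ₘ {m₀.h C j₂})
    rw [s3, Finset.mul_sum, map_sum] at d3
    obtain ⟨d, hd, d4⟩ := Finset.exists_ne_zero_of_sum_ne_zero d3
    have k1 : d (.inl jH) = 0 := (s1 d hd jH).trans d1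
    have k2 : d (.inl j₂) ≠ 0 := (s1 d hd j₂).trans_ne d2
    have k0 : d ≠ 0 := fun h0 => k2 (by rw [h0]; rfl)
    change C.itg _ (m.h C (.inl jH) ^ 2 * m.h C (.inl j₂) *
      G.op m d (m.h C (.inl j₂) ::ₘ {m.h C (.inl j₂)})) ≠ 0 at d4
    have eE : b.t C 1 = (g.m : ℂ) • m.h C (.inl jH) - m.h C (.inl j₂) := by
      have r1 := (m.reg (.inl jH)).2
      have r2 := (m.reg (.inl j₂)).2
      rw [Pre.h, Pre.h, show m.T (.inl jH) = _ from hH, show (m.T (.inl j₂)).bd = _ from hj₂] at *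
      change oP b.lo ∈ _ at r1
      change _ = (g.m : ℂ) • C.c1 (sv b.hi) (oP b.lo) - _
      rw [t_one A, e2, A.man.c1_sub (nsmul_mem r1 _) r2, A.man.c1_nsmul r1, Nat.cast_smul_eq_nsmul]
    generalize m.h C (.inl j₂) = w at d4 eE
    have o1 : ∀ x, G.op m d (b.t C 1 ::ₘ {x}) = -G.op m d (w ::ₘ {x}) := fun x => by
      rw [eE, Gw.op, Hyc.op_sub, Hyc.smul, show (G.Q m).op d _ = 0 from op_h hG k0 k1 x, smul_zero,
        zero_sub]
    have o2 : G.op m d (b.t C 1 ::ₘ {b.t C 1}) = G.op m d (w ::ₘ {w}) := by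
      rw [o1, show (w ::ₘ {b.t C 1} : Multiset _) = b.t C 1 ::ₘ {w} from Multiset.cons_swap _ _ 0,
        o1, neg_neg]
    have o3 : ∀ c, G.op m d (C.pb (mor b.ge) c ::ₘ {w}) = 0 := fun c => by
      have h3 := lin c d k1 1 {w}
      rwa [mul_one, show (G.Q m).op d _ = 0 from op_one hG k2 w, mul_zero] at h3
    have o4 : m.h C (.inl jH) ^ 3 * G.op m d (w ::ₘ {w}) = 0 := by
      have h3 : C.pb (mor b.ge) (C.hc (sv b.lo) ^ 3) * w =
          C.pb (mor b.ge) ((g.m : ℂ) • C.hc (sv b.lo) ^ 4) := by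
        have h4 := pb_mul_t A b (C.hc (sv b.lo) ^ 3) 1
        rw [pb_i_zero A b (Or.inl (by decide)) (A.typ.hc_pow A.man A.pd _ 3), zero_mul, map_zero,
          eE, eH, mul_sub, sub_eq_zero] at h4
        rw [← h4, mul_smul_comm, map_smul, ← map_mul, ← pow_succ]
      rw [eH, ← map_pow, Gw.op, ← lin _ d k1, h3]
      exact o3 _
    refine ⟨d, k0, k1, by_contra fun k3 => d4 ?_, fun k4 => d4 ?_⟩
    · have h3 := hG.dvz m (.inr ()) d (w ::ₘ {w}) (by simp)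
      have h4 := lin (C.c1 (sv b.lo) (mxf ℂ ![1, t 0, t 1])) d k1 1 (w ::ₘ {w})
      rw [mul_one, ← eG, h3, show (G.Q m).op d _ = 0 from hG.str m d _ (by simp), mul_zero,
        smul_eq_zero_iff_right (Nat.cast_ne_zero.2 k3)] at h4
      rw [Gw.op, h4, mul_zero, map_zero]
    · have h3 : C.pb b.i (C.hc (sv b.lo) ^ 2) ∈ C.dg b.Z b.Z.dim := by
        rw [b.dimZ]
        exact A.man.pb_dg _ _ (A.man.hc_pow _ 2)
      have h4 := pb_mul_t A b (C.hc (sv b.lo) ^ 2) 1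
      rw [mul_one, A.pd.top_eq A.man h3, map_smul, b.dimZ, map_pow, ← eH] at h4
      have h5 := congrArg (fun x => C.itg _ (x * G.op m d (b.t C 1 ::ₘ {b.t C 1}))) h4
      simp only [smul_mul_assoc, map_smul, k4, smul_zero] at h5
      rw [o2, eE, mul_sub, sub_mul, mul_smul_comm, ← pow_succ, smul_mul_assoc, o4, smul_zero,
        zero_sub, map_neg, neg_eq_zero] at h5
      exact h5

/-- **(BL) and (PR)** -/
theorem blStmt_of (hB : BlowGStmt C) (h42 : H42Stmt C) : Gwb.BlStmt G := by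
  intro K _ _ hK
  refine ⟨Sp C, Sp.ex hB, fun b hb => ?_⟩
  obtain ⟨D⟩ := exists_dat A F hG hS hN h₁ h₂ hb
  have h := (h42 K hK).2 b.hi
  refine ⟨hb.lh, fun x hx _ => End36.eig_of_one A.typ hG D.m fun d l hl => ?_,
    fun x hx h1 _ => D.pr' A F hG hb.lh h hx h1⟩
  rcases eq_or_ne l 0 with rfl | h0
  · exact ⟨0, by rw [zero_smul]; exact hG.low D.m d _ (by simp)⟩
  · exact D.blk A F hG hb.lh h d l hl h0 hx

end Crest.Agent.X262.Bl53
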